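import Vale.Agent.P245N.Spec

/-!
Quadratic infimal convolution of a bounded function and its Gaussian mollification.
-/

open MeasureTheory Real Filter Set
open scoped Topology RealInnerProductSpace

namespace Vale.Agent.P245N

open Vale.Agent.P245

variable {n : ℕ} {f : Euc n → ℝ} {B s d ε : ℝ}

/-- Quadratic infimal convolution. -/
noncomputable def iconv (f : Euc n → ℝ) (s : ℝ) (x : Euc n) : ℝ := ⨅ y, (f y + ‖x - y‖ ^ 2 / (2 * s))

/-- Lipschitz constant of the infimal convolution of a function bounded by `B`. -/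
noncomputable def icLip (B s : ℝ) : ℝ := 2 * √(B * s) / s

lemma bddBelow_iconv (hB : ∀ x, |f x| ≤ B) (hs : 0 < s) (x : Euc n) :
    BddBelow (Set.range fun y => f y + ‖x - y‖ ^ 2 / (2 * s)) := by
  refine ⟨-B, ?_⟩
  rintro _ ⟨y, rfl⟩
  have := (abs_le.1 (hB y)).1
  have : 0 ≤ ‖x - y‖ ^ 2 / (2 * s) := by positivity
  linarith

lemma iconv_le (hB : ∀ x, |f x| ≤ B) (hs : 0 < s) (x y : Euc n) : iconv f s x ≤ f y + ‖x - y‖ ^ 2 / (2 * s) :=
  ciInf_le (bddBelow_iconv hB hs x) y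

lemma iconv_le_self (hB : ∀ x, |f x| ≤ B) (hs : 0 < s) (x : Euc n) : iconv f s x ≤ f x :=
  (iconv_le hB hs x x).trans (by simp)

lemma abs_iconv_le (hB : ∀ x, |f x| ≤ B) (hs : 0 < s) (x : Euc n) : |iconv f s x| ≤ B := by
  refine abs_le.2 ⟨le_ciInf fun y => ?_, (iconv_le_self hB hs x).trans (abs_le.1 (hB x)).2⟩
  have := (abs_le.1 (hB y)).1
  have : 0 ≤ ‖x - y‖ ^ 2 / (2 * s) := by positivity
  linarith

lemma iconv_step (hB : ∀ x, |f x| ≤ B) (hs : 0 < s) (hd : 0 < d) (x y : Euc n) :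
    iconv f (s + d) x ≤ ‖x - y‖ ^ 2 / (2 * d) + iconv f s y := by
  rw [← sub_le_iff_le_add']
  refine le_ciInf fun z => ?_
  have h := iconv_le hB (add_pos hs hd) x z
  have h1 : ‖x - z‖ ^ 2 ≤ (‖x - y‖ + ‖y - z‖) ^ 2 :=
    pow_le_pow_left₀ (norm_nonneg _) (norm_sub_le_norm_sub_add_norm_sub x y z) 2
  have h2 : ‖x - z‖ ^ 2 / (2 * (s + d)) ≤ ‖x - y‖ ^ 2 / (2 * d) + ‖y - z‖ ^ 2 / (2 * s) := by
    refine (div_le_div_of_nonneg_right h1 (by positivity)).trans ?_
    rw [div_add_div _ _ (by positivity) (by positivity), div_le_div_iff₀ (by positivity) (by positivity)]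
    nlinarith [mul_nonneg (mul_nonneg hs.le hd.le) (sq_nonneg (s * ‖x - y‖ - d * ‖y - z‖)),
      sq_nonneg (s * ‖x - y‖ - d * ‖y - z‖)]
  linarith

lemma iconv_shift (hB : ∀ x, |f x| ≤ B) (hs : 0 < s) (x δ : Euc n) :
    iconv f s (x + δ) ≤ iconv f s x + icLip B s * ‖δ‖ + ‖δ‖ ^ 2 / (2 * s) := by
  have hB0 : 0 ≤ B := (abs_nonneg _).trans (hB 0)
  have hL : 0 ≤ icLip B s := by unfold icLip; positivity
  rw [add_assoc, ← sub_le_iff_le_add]
  refine le_ciInf fun y => ?_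
  have hd0 : 0 ≤ ‖δ‖ ^ 2 / (2 * s) := by positivity
  have hn := norm_nonneg δ
  rcases le_or_gt ‖x - y‖ (2 * √(B * s)) with h | h
  · have h1 := iconv_le hB hs (x + δ) y
    have e : ‖x + δ - y‖ ^ 2 = ‖x - y‖ ^ 2 + 2 * ⟪x - y, δ⟫ + ‖δ‖ ^ 2 := by
      rw [← norm_add_sq_real]; congr 2; abel
    rw [e, add_div, add_div] at h1
    have h2 : 2 * ⟪x - y, δ⟫ / (2 * s) ≤ icLip B s * ‖δ‖ := by
      rw [icLip, mul_div_mul_left _ _ two_ne_zero, div_mul_eq_mul_div]
      exact div_le_div_of_nonneg_right ((real_inner_le_norm _ _).trans (mul_le_mul_of_nonneg_right h hn)) hs.le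
    linarith
  · have h1 := iconv_le_self hB hs (x + δ)
    have h2 := (abs_le.1 (hB (x + δ))).2
    have h3 := (abs_le.1 (hB y)).1
    have h4 : 2 * B ≤ ‖x - y‖ ^ 2 / (2 * s) := by
      rw [le_div_iff₀ (by positivity)]
      have h5 := pow_le_pow_left₀ (by positivity) h.le 2
      rw [mul_pow, Real.sq_sqrt (by positivity)] at h5
      linarith
    have := mul_nonneg hL hn
    linarith

lemma abs_iconv_sub_le (hB : ∀ x, |f x| ≤ B) (hs : 0 < s) (x δ : Euc n) :
    |iconv f s (x + δ) - iconv f s x| ≤ icLip B s * ‖δ‖ + ‖δ‖ ^ 2 / (2 * s) := by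
  have h1 := iconv_shift hB hs x δ
  have h2 := iconv_shift hB hs (x + δ) (-δ)
  rw [add_neg_cancel_right, norm_neg] at h2
  rw [abs_le]
  constructor <;> linarith

lemma continuous_iconv (hB : ∀ x, |f x| ≤ B) (hs : 0 < s) : Continuous (iconv f s) := by
  refine continuous_iff_continuousAt.2 fun x => ?_
  have h0 : Tendsto (fun y => icLip B s * ‖y - x‖ + ‖y - x‖ ^ 2 / (2 * s)) (𝓝 x) (𝓝 0) := by
    have hc : Continuous fun y => icLip B s * ‖y - x‖ + ‖y - x‖ ^ 2 / (2 * s) := by fun_prop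
    simpa using hc.tendsto x
  rw [ContinuousAt, tendsto_iff_dist_tendsto_zero]
  refine squeeze_zero (fun y => dist_nonneg) (fun y => ?_) h0
  have h := abs_iconv_sub_le hB hs x (y - x)
  rw [add_sub_cancel] at h
  exact h

lemma iconv_chord (hB : ∀ x, |f x| ≤ B) (hs : 0 < s) {l : ℝ} (hl0 : 0 ≤ l) (hl1 : l ≤ 1) (x δ : Euc n) :
    (1 - l) * iconv f s x + l * iconv f s (x + δ) - l * (1 - l) * ‖δ‖ ^ 2 / (2 * s) ≤ iconv f s (x + l • δ) := by
  refine le_ciInf fun y => ?_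
  have h1 := mul_le_mul_of_nonneg_left (iconv_le hB hs x y) (by linarith : 0 ≤ 1 - l)
  have h2 := mul_le_mul_of_nonneg_left (iconv_le hB hs (x + δ) y) hl0
  have e1 : ∀ r : ℝ, ‖x + r • δ - y‖ ^ 2 = ‖x - y‖ ^ 2 + 2 * r * ⟪x - y, δ⟫ + r ^ 2 * ‖δ‖ ^ 2 := fun r => by
    rw [show x + r • δ - y = x - y + r • δ by abel, norm_add_sq_real, inner_smul_right, norm_smul, mul_pow,
      norm_eq_abs, sq_abs]
    ring
  have e2 := e1 1
  rw [one_smul] at e2
  rw [e2] at h2
  rw [e1]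
  have e3 : (1 - l) * (f y + ‖x - y‖ ^ 2 / (2 * s))
      + l * (f y + (‖x - y‖ ^ 2 + 2 * 1 * ⟪x - y, δ⟫ + 1 ^ 2 * ‖δ‖ ^ 2) / (2 * s)) - l * (1 - l) * ‖δ‖ ^ 2 / (2 * s)
      = f y + (‖x - y‖ ^ 2 + 2 * l * ⟪x - y, δ⟫ + l ^ 2 * ‖δ‖ ^ 2) / (2 * s) := by ring
  linarith

/-- Gaussian mollification. -/
noncomputable def moll (ε : ℝ) (h : Euc n → ℝ) (x : Euc n) : ℝ := ∫ G, h (x + ε • G) ∂(gam n)

lemma integrable_comp_add {h : Euc n → ℝ} (hc : Continuous h) {B : ℝ} (hB : ∀ x, |h x| ≤ B) (ε : ℝ) (x : Euc n) :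
    Integrable (fun G => h (x + ε • G)) (gam n) :=
  integrable_gam_bdd (hc.comp (by fun_prop)) fun _ => hB _

lemma d1_moll {h : Euc n → ℝ} (hc : Continuous h) {B : ℝ} (hB : ∀ x, |h x| ≤ B) {ε : ℝ} (hε : 0 < ε) :
    ∃ V', D1 (moll ε h) V' := by
  have hB0 : 0 ≤ B := (abs_nonneg _).trans (hB 0)
  set W := fun (c G : Euc n) => exp (⟪c, G⟫ - ‖c‖ ^ 2 / 2) * h (ε • G) with hW
  set W' := fun (c G : Euc n) => (exp (⟪c, G⟫ - ‖c‖ ^ 2 / 2) * h (ε • G)) • (G - c) with hW'
  have e0 : moll ε h = fun x => ∫ G, W (ε⁻¹ • x) G ∂(gam n) := funext fun x => by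
    have h1 := integral_gam_shift (fun G => h (ε • G)) (ε⁻¹ • x)
    simp only [smul_eq_mul] at h1
    rw [moll, ← h1]
    refine integral_congr_ae (Eventually.of_forall fun G => ?_)
    simp only [smul_add, smul_smul, mul_inv_cancel₀ hε.ne', one_smul, add_comm]
  have cW' : ∀ c, Continuous (W' c) := fun c => by simp only [hW']; fun_prop
  have hb : ∀ c₀ c G : Euc n, ‖c‖ ≤ ‖c₀‖ + 1 → ‖W' c G‖ ≤ B * exp ((2 * (‖c₀‖ + 2)) * ‖G‖) * exp (‖c₀‖ + 2) := by
    intro c₀ c G hc'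
    simp only [hW', norm_smul, norm_mul, norm_eq_abs, abs_exp]
    have h1 : exp (⟪c, G⟫ - ‖c‖ ^ 2 / 2) ≤ exp ((‖c₀‖ + 1) * ‖G‖) := exp_le_exp.2 (by
      have := (real_inner_le_norm c G).trans (mul_le_mul_of_nonneg_right hc' (norm_nonneg _))
      linarith [sq_nonneg ‖c‖])
    have h2 : ‖G - c‖ ≤ exp (‖G‖ + (‖c₀‖ + 2)) := by
      refine (norm_sub_le _ _).trans ?_
      linarith [add_one_le_exp (‖G‖ + (‖c₀‖ + 2))]
    calc exp (⟪c, G⟫ - ‖c‖ ^ 2 / 2) * |h (ε • G)| * ‖G - c‖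
        ≤ exp ((‖c₀‖ + 1) * ‖G‖) * B * exp (‖G‖ + (‖c₀‖ + 2)) :=
          mul_le_mul (mul_le_mul h1 (hB _) (abs_nonneg _) (exp_pos _).le) h2 (norm_nonneg _) (by positivity)
      _ ≤ _ := by
          rw [mul_comm (exp ((‖c₀‖ + 1) * ‖G‖)) B, mul_assoc, ← exp_add, mul_assoc B, ← exp_add]
          refine mul_le_mul_of_nonneg_left (exp_le_exp.2 ?_) hB0
          nlinarith [norm_nonneg G, norm_nonneg c₀]
  have hd : ∀ c, HasFDerivAt (fun c => ∫ G, W c G ∂(gam n)) (innerSL ℝ (∫ G, W' c G ∂(gam n))) c := by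
    intro c
    have hi : Integrable (W' c) (gam n) :=
      (((expInt_gam _).const_mul B).mul_const _).mono' (cW' c).aestronglyMeasurable
        (Eventually.of_forall fun G => hb c c G (by linarith))
    have hd' : ∀ G y, HasFDerivAt (fun c => W c G) (innerSL ℝ (W' y G)) y := fun G y => by
      have h1 : HasFDerivAt (fun c : Euc n => ⟪c, G⟫ - ‖c‖ ^ 2 / 2) (innerSL ℝ (G - y)) y := by
        have h2 : HasFDerivAt (fun c : Euc n => ⟪c, G⟫) (innerSL ℝ G) y := by
          have h := (innerSL ℝ G).hasFDerivAt (x := y)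
          simpa [innerSL_apply_apply, real_inner_comm] using! h
        have h3 := ((hasStrictFDerivAt_norm_sq y).hasFDerivAt).const_mul ((1 : ℝ) / 2)
        refine ((h2.sub h3).congr_fderiv ?_).congr_of_eventuallyEq (Eventually.of_forall fun z => ?_)
        · rw [map_sub]; ext v; simp
        · simp; ring
      refine (h1.exp.mul_const (h (ε • G))).congr_fderiv ?_
      simp only [hW', map_smul, smul_smul, mul_comm]
    have := hasFDerivAt_integral_of_dominated_of_fderiv_le (μ := gam n) (F := W)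
      (F' := fun y G => innerSL ℝ (W' y G))
      (bound := fun G => B * exp ((2 * (‖c‖ + 2)) * ‖G‖) * exp (‖c‖ + 2))
      (s := Metric.ball c 1) (Metric.ball_mem_nhds c one_pos)
      (Eventually.of_forall fun y => by simp only [hW]; exact Continuous.aestronglyMeasurable (by fun_prop))
      (by
        refine ((expInt_gam ‖c‖).const_mul B).mono' (by simp only [hW]; exact Continuous.aestronglyMeasurable (by fun_prop))
          (Eventually.of_forall fun G => ?_)
        simp only [hW, norm_mul, norm_eq_abs, abs_exp]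
        rw [mul_comm]
        refine mul_le_mul (hB _) (exp_le_exp.2 ?_) (exp_pos _).le hB0
        linarith [real_inner_le_norm c G, sq_nonneg ‖c‖])
      ((innerSL ℝ).continuous.comp (cW' c)).aestronglyMeasurable
      (Eventually.of_forall fun G y hy => by
        rw [innerSL_apply_norm]
        refine hb c y G ?_
        have h9 : ‖y - c‖ ≤ 1 := by rw [← dist_eq_norm]; exact (Metric.mem_ball.1 hy).le
        calc ‖y‖ ≤ ‖c‖ + ‖y - c‖ := norm_le_norm_add_norm_sub' _ _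
          _ ≤ _ := by linarith)
      (((expInt_gam _).const_mul B).mul_const _) (Eventually.of_forall fun G y _ => hd' G y)
    rwa [ContinuousLinearMap.integral_comp_comm (innerSL ℝ) hi] at this
  have hcW : Continuous fun c => ∫ G, W' c G ∂(gam n) := by
    refine continuous_iff_continuousAt.2 fun c => continuousAt_of_dominated
      (bound := fun G => B * exp ((2 * (‖c‖ + 2)) * ‖G‖) * exp (‖c‖ + 2))
      (Eventually.of_forall fun y => (cW' y).aestronglyMeasurable) ?_ (((expInt_gam _).const_mul B).mul_const _)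
      (Eventually.of_forall fun G => by simp only [hW']; fun_prop)
    filter_upwards [Metric.closedBall_mem_nhds c one_pos] with y hy
    refine Eventually.of_forall fun G => hb c y G ?_
    have h9 : ‖y - c‖ ≤ 1 := by rw [← dist_eq_norm]; exact hy
    calc ‖y‖ ≤ ‖c‖ + ‖y - c‖ := norm_le_norm_add_norm_sub' _ _
      _ ≤ _ := by linarith
  refine ⟨fun x => ε⁻¹ • ∫ G, W' (ε⁻¹ • x) G ∂(gam n), fun x => ?_,
    (hcW.comp (continuous_const_smul ε⁻¹)).const_smul ε⁻¹⟩
  rw [e0]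
  have h1 : HasFDerivAt (fun x : Euc n => ε⁻¹ • x) (ε⁻¹ • ContinuousLinearMap.id ℝ (Euc n)) x :=
    (hasFDerivAt_id x).const_smul ε⁻¹
  convert! (hd (ε⁻¹ • x)).comp x h1 using 1
  ext v; simp

lemma moll_near (hB : ∀ x, |f x| ≤ B) (hs : 0 < s) (hε : 0 ≤ ε) (x : Euc n) :
    |moll ε (iconv f s) x - iconv f s x|
      ≤ icLip B s * ε * (∫ G, ‖G‖ ∂(gam n)) + ε ^ 2 / (2 * s) * ∫ G, ‖G‖ ^ 2 ∂(gam n) := by
  have i1 : Integrable (fun G : Euc n => ‖G‖) (gam n) :=
    (expInt_gam 1).mono' (by fun_prop) (Eventually.of_forall fun G => by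
      rw [norm_norm, one_mul]; linarith [add_one_le_exp ‖G‖])
  have i2 : Integrable (fun G : Euc n => ‖G‖ ^ 2) (gam n) :=
    (expInt_gam 2).mono' (by fun_prop) (Eventually.of_forall fun G => by
      rw [norm_eq_abs, abs_of_nonneg (sq_nonneg _), show 2 * ‖G‖ = ‖G‖ + ‖G‖ by ring, exp_add, sq]
      have h := add_one_le_exp ‖G‖
      exact mul_le_mul (by linarith) (by linarith) (norm_nonneg _) (exp_pos _).le)
  have ih := integrable_comp_add (continuous_iconv hB hs) (abs_iconv_le hB hs) ε x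
  have e : moll ε (iconv f s) x - iconv f s x = ∫ G, (iconv f s (x + ε • G) - iconv f s x) ∂(gam n) := by
    rw [moll, integral_sub ih (integrable_const _), integral_const, probReal_univ, one_smul]
  rw [e, ← integral_const_mul, ← integral_const_mul, ← integral_add (i1.const_mul _) (i2.const_mul _)]
  refine (abs_integral_le_integral_abs).trans (integral_mono ((ih.sub (integrable_const _)).abs)
    ((i1.const_mul _).add (i2.const_mul _)) fun G => ?_)
  refine (abs_iconv_sub_le hB hs x (ε • G)).trans (le_of_eq ?_)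
  rw [norm_smul, norm_eq_abs, abs_of_nonneg hε]; ring

lemma abs_moll_le (hB : ∀ x, |f x| ≤ B) (hs : 0 < s) (x : Euc n) : |moll ε (iconv f s) x| ≤ B :=
  abs_gint_le fun _ => abs_iconv_le hB hs _

lemma sc_moll (hB : ∀ x, |f x| ≤ B) (hs : 0 < s) {V' : Euc n → Euc n} (hV : D1 (moll ε (iconv f s)) V') :
    SC (1 / s) (moll ε (iconv f s)) V' := by
  intro x y
  set V := moll ε (iconv f s) with hVdef
  set δ := y - x with hδ
  have hch : ∀ l : ℝ, 0 ≤ l → l ≤ 1 →
      (1 - l) * V x + l * V (x + δ) - l * (1 - l) * ‖δ‖ ^ 2 / (2 * s) ≤ V (x + l • δ) := fun l hl0 hl1 => by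
    have ih := fun z => integrable_comp_add (continuous_iconv hB hs) (abs_iconv_le hB hs) ε z
    simp only [hVdef, moll]
    rw [← integral_const_mul, ← integral_const_mul, ← integral_add ((ih x).const_mul _) ((ih _).const_mul _)]
    rw [show ∀ u : ℝ, ∀ c : ℝ, u - c = u - ∫ _G, c ∂(gam n) from fun u c => by simp, ← integral_sub
      (((ih x).const_mul _).fun_add ((ih _).const_mul _)) (integrable_const _)]
    refine integral_mono ((((ih x).const_mul _).fun_add ((ih _).const_mul _)).sub' (integrable_const _)) (ih _) fun G => ?_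
    have h := iconv_chord hB hs hl0 hl1 (x + ε • G) δ
    have e1 : x + δ + ε • G = x + ε • G + δ := by abel
    have e2 : x + l • δ + ε • G = x + ε • G + l • δ := by abel
    simp only [e1, e2]; exact h
  have hd : HasDerivAt (fun l : ℝ => V (x + l • δ)) ⟪V' x, δ⟫ 0 := by
    have h1 : HasDerivAt (fun l : ℝ => x + l • δ) δ 0 := by
      simpa using ((hasDerivAt_id (0 : ℝ)).smul_const δ).const_add x
    have h2 := (hV.deriv (x + (0 : ℝ) • δ)).comp_hasDerivAt 0 h1
    simpa [innerSL_apply_apply] using! h2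
  have hlim := hd.tendsto_slope_zero_right
  have hlim2 : Tendsto (fun l : ℝ => V (x + δ) - V x - (1 - l) * ‖δ‖ ^ 2 / (2 * s)) (𝓝[>] 0)
      (𝓝 (V (x + δ) - V x - ‖δ‖ ^ 2 / (2 * s))) := by
    have hc : Continuous fun l : ℝ => V (x + δ) - V x - (1 - l) * ‖δ‖ ^ 2 / (2 * s) := by fun_prop
    simpa using (hc.tendsto 0).mono_left nhdsWithin_le_nhds
  have hle : V (x + δ) - V x - ‖δ‖ ^ 2 / (2 * s) ≤ ⟪V' x, δ⟫ := by
    refine le_of_tendsto_of_tendsto hlim2 hlim ?_
    filter_upwards [Ioo_mem_nhdsGT (zero_lt_one' ℝ)] with l hl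
    simp only [zero_add, zero_smul, add_zero, smul_eq_mul, inv_mul_eq_div]
    rw [le_div_iff₀ hl.1]
    have h := hch l hl.1.le hl.2.le
    have e : l * (1 - l) * ‖δ‖ ^ 2 / (2 * s) = (1 - l) * ‖δ‖ ^ 2 / (2 * s) * l := by ring
    rw [e] at h
    nlinarith
  rw [hδ, add_sub_cancel] at hle
  rw [div_div, one_div_mul_eq_div] at *
  rw [hδ, mul_comm s 2]
  linarith

lemma norm_grad_moll_le (hB : ∀ x, |f x| ≤ B) (hs : 0 < s) {V' : Euc n → Euc n}
    (hV : D1 (moll ε (iconv f s)) V') (x : Euc n) : ‖V' x‖ ≤ icLip B s := by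
  set V := moll ε (iconv f s) with hVdef
  set δ := V' x with hδ
  have hup : ∀ l : ℝ, 0 ≤ l → V (x + l • δ) ≤ V x + l * (icLip B s * ‖δ‖) + l ^ 2 * (‖δ‖ ^ 2 / (2 * s)) := fun l hl => by
    have ih := fun z => integrable_comp_add (continuous_iconv hB hs) (abs_iconv_le hB hs) ε z
    simp only [hVdef, moll]
    rw [add_assoc, show ∀ u c : ℝ, u + c = u + ∫ _G, c ∂(gam n) from fun u c => by simp,
      ← integral_add (ih x) (integrable_const _)]
    refine integral_mono (ih _) ((ih x).fun_add (integrable_const _)) fun G => ?_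
    have h := iconv_shift hB hs (x + ε • G) (l • δ)
    rw [norm_smul, norm_eq_abs, abs_of_nonneg hl] at h
    rw [show x + l • δ + ε • G = x + ε • G + l • δ by abel]
    refine h.trans (le_of_eq ?_)
    ring
  have hd : HasDerivAt (fun l : ℝ => V (x + l • δ)) ⟪V' x, δ⟫ 0 := by
    have h1 : HasDerivAt (fun l : ℝ => x + l • δ) δ 0 := by
      simpa using ((hasDerivAt_id (0 : ℝ)).smul_const δ).const_add x
    have h2 := (hV.deriv (x + (0 : ℝ) • δ)).comp_hasDerivAt 0 h1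
    simpa [innerSL_apply_apply] using! h2
  have hlim2 : Tendsto (fun l : ℝ => icLip B s * ‖δ‖ + l * (‖δ‖ ^ 2 / (2 * s))) (𝓝[>] 0) (𝓝 (icLip B s * ‖δ‖)) := by
    have hc : Continuous fun l : ℝ => icLip B s * ‖δ‖ + l * (‖δ‖ ^ 2 / (2 * s)) := by fun_prop
    simpa using (hc.tendsto 0).mono_left nhdsWithin_le_nhds
  have hle : ⟪V' x, δ⟫ ≤ icLip B s * ‖δ‖ := by
    refine le_of_tendsto_of_tendsto hd.tendsto_slope_zero_right hlim2 ?_
    filter_upwards [self_mem_nhdsWithin] with l hl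
    have hl' : 0 < l := hl
    simp only [zero_add, zero_smul, add_zero, smul_eq_mul, inv_mul_eq_div]
    rw [div_le_iff₀ hl']
    have h := hup l hl'.le
    nlinarith
  rw [hδ, real_inner_self_eq_norm_sq] at hle
  rcases (norm_nonneg (V' x)).eq_or_lt with h | h
  · rw [← h]; unfold icLip; positivity
  · exact le_of_mul_le_mul_right (by linarith) h

end Vale.Agent.P245N
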