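import Vale.Agent.P245N.HopfLax.Conv

/-!
One step, and the iteration, of the hypercontractive bound for the infimal convolution.
-/

open MeasureTheory Real Filter Set
open scoped Topology RealInnerProductSpace

namespace Vale.Agent.P245N

open Vale.Agent.P245

variable {n : ℕ} {μ : Measure (Euc n)} [IsProbabilityMeasure μ] {R K z a B : ℝ}

lemma log_integral_exp_le_sq (hS : Supp μ R) {p X : Euc n → ℝ} (hp : Continuous p) (hp0 : ∀ x, 0 ≤ p x)
    (hp1 : ∫ x, p x ∂μ = 1) (hX : Continuous X) {M : ℝ} (hM : ∀ x, |X x| ≤ M) (hM1 : M ≤ 1) :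
    log (∫ x, p x * exp (X x) ∂μ) ≤ (∫ x, p x * X x ∂μ) + M ^ 2 := by
  have hpt : ∀ x, p x * exp (X x) ≤ p x * (1 + X x + M ^ 2) := fun x => by
    refine mul_le_mul_of_nonneg_left ?_ (hp0 x)
    have h := abs_le.1 (Real.abs_exp_sub_one_sub_id_le ((hM x).trans hM1))
    have h2 := pow_le_pow_left₀ (abs_nonneg _) (hM x) 2
    rw [sq_abs] at h2
    linarith
  have hi : Integrable (fun x => p x * exp (X x)) μ := hS.integrable (by fun_prop)
  have h1 := integral_mono hi (hS.integrable (by fun_prop)) hpt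
  have e : ∫ x, p x * (1 + X x + M ^ 2) ∂μ = 1 + (∫ x, p x * X x ∂μ) + M ^ 2 := by
    rw [show (fun x => p x * (1 + X x + M ^ 2)) = fun x => (1 + M ^ 2) * p x + p x * X x from funext fun x => by ring,
      integral_add (hS.integrable (by fun_prop)) (hS.integrable (by fun_prop)), integral_const_mul, hp1]
    ring
  have hpos : 0 < ∫ x, p x * exp (X x) ∂μ := by
    have h2 : ∫ x, p x * exp (-M) ∂μ ≤ ∫ x, p x * exp (X x) ∂μ :=
      integral_mono (hS.integrable (by fun_prop)) hi fun x =>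
        mul_le_mul_of_nonneg_left (exp_le_exp.2 (abs_le.1 (hM x)).1) (hp0 x)
    rw [integral_mul_const, hp1, one_mul] at h2
    exact (exp_pos _).trans_le h2
  have := log_le_sub_one_of_pos hpos
  linarith

lemma hl_scalar {p p' a d K z c C EV Ew LZ LA LU LN : ℝ} (hp : 1 ≤ p) (hp' : p' = p + a * d) (had : 0 < a * d)
    (hz : 0 ≤ z) (hEw : 0 ≤ Ew) (hC : 0 ≤ C) (hsem : p * EV - LZ ≤ K * (p ^ 2 * Ew) + z)
    (hlog : LA ≤ a * d * EV - p' * c * Ew + d ^ 2 * C) (hLN : LN ≤ p' * d ^ 2 + (LZ + LA))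
    (hZU : LZ ≤ p * d ^ 2 + LU) (hcoef : a * d * p * K ≤ p' * c) :
    LN / p' ≤ LU / p + a * d * z + d ^ 2 * (2 + C) := by
  have hp0 : 0 < p := by linarith
  have hp'1 : 1 ≤ p' := by linarith
  have h1 := mul_le_mul_of_nonneg_left hsem (div_nonneg had.le hp0.le)
  have e1 : a * d / p * (K * (p ^ 2 * Ew)) = a * d * p * K * Ew := by field_simp
  have e2 : a * d / p * (p * EV) = a * d * EV := by field_simp
  rw [mul_sub, mul_add, e1, e2] at h1
  have h2 := mul_le_mul_of_nonneg_right hcoef hEw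
  have h3 : a * d / p * z ≤ p' * (a * d * z) := by
    rw [div_mul_eq_mul_div]
    exact (div_le_self (mul_nonneg had.le hz) hp).trans (le_mul_of_one_le_left (mul_nonneg had.le hz) hp'1)
  have h4 : d ^ 2 * C ≤ p' * (d ^ 2 * C) := le_mul_of_one_le_left (by positivity) hp'1
  have h5 := mul_le_mul_of_nonneg_right hZU (by positivity : 0 ≤ p' / p)
  have e3 : LZ * (p' / p) = LZ + a * d / p * LZ := by rw [hp']; field_simp
  have e4 : (p * d ^ 2 + LU) * (p' / p) = p' * d ^ 2 + p' * (LU / p) := by field_simp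
  rw [e3, e4] at h5
  rw [div_le_iff₀ (by linarith : 0 < p')]
  linarith

lemma hl_data {f : Euc n → ℝ} (hB : ∀ x, |f x| ≤ B) (ha : 0 < a) {s d : ℝ} (hs1 : 1 ≤ a * s) (hd : 0 < d) :
    ∃ (V : Euc n → ℝ) (V' : Euc n → Euc n), D1 V V' ∧ SC (1 / s) V V' ∧ (∀ x, |V x| ≤ B) ∧
      (∀ x, ‖V' x‖ ^ 2 ≤ 4 * (B * a)) ∧ (∀ x, V x ≤ iconv f s x + d ^ 2) ∧
      ∀ x, iconv f (s + d) x ≤ V x - d / 2 * (1 - d / s) * ‖V' x‖ ^ 2 + d ^ 2 := by
  have hs : 0 < s := pos_of_mul_pos_right (lt_of_lt_of_le one_pos hs1) ha.le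
  have hB0 : 0 ≤ B := (abs_nonneg _).trans (hB 0)
  set m1 := ∫ G, ‖G‖ ∂(gam n)
  set m2 := ∫ G, ‖G‖ ^ 2 ∂(gam n)
  obtain ⟨ε, hε, hεd⟩ : ∃ ε : ℝ, 0 < ε ∧ icLip B s * ε * m1 + ε ^ 2 / (2 * s) * m2 ≤ d ^ 2 := by
    have hc : Continuous fun ε : ℝ => icLip B s * ε * m1 + ε ^ 2 / (2 * s) * m2 := by fun_prop
    have h0 : Tendsto (fun ε : ℝ => icLip B s * ε * m1 + ε ^ 2 / (2 * s) * m2) (𝓝[>] 0) (𝓝 0) := by
      simpa using (hc.tendsto 0).mono_left nhdsWithin_le_nhds
    obtain ⟨ε, h1, h2⟩ := ((h0.eventually (eventually_le_nhds (by positivity : (0:ℝ) < d ^ 2))).and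
      self_mem_nhdsWithin).exists
    exact ⟨ε, h2, h1⟩
  obtain ⟨V', hV⟩ := d1_moll (continuous_iconv hB hs) (abs_iconv_le hB hs) hε
  have hsc := sc_moll hB hs hV
  refine ⟨_, V', hV, hsc, fun x => abs_moll_le hB hs x, fun x => ?_, fun x => ?_, fun x => ?_⟩
  · refine (pow_le_pow_left₀ (norm_nonneg _) (norm_grad_moll_le hB hs hV x) 2).trans ?_
    rw [icLip, div_pow, mul_pow, Real.sq_sqrt (by positivity), div_le_iff₀ (by positivity)]
    have h9 : B * s * 1 ≤ B * s * (a * s) := mul_le_mul_of_nonneg_left hs1 (by positivity)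
    linarith
  · linarith [(abs_le.1 ((moll_near hB hs hε.le x).trans hεd)).2]
  · have h1 := iconv_step hB hs hd x (x - d • V' x)
    rw [sub_sub_cancel, norm_smul, norm_eq_abs, abs_of_pos hd] at h1
    have h2 := (abs_le.1 ((moll_near hB hs hε.le (x - d • V' x)).trans hεd)).1
    have h3 := hsc x (x - d • V' x)
    rw [sub_sub_cancel_left, inner_neg_right, inner_smul_right, real_inner_self_eq_norm_sq, norm_neg, norm_smul,
      norm_eq_abs, abs_of_pos hd] at h3
    have e : moll ε (iconv f s) x + -(d * ‖V' x‖ ^ 2) + 1 / s / 2 * (d * ‖V' x‖) ^ 2 + (d * ‖V' x‖) ^ 2 / (2 * d)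
        = moll ε (iconv f s) x - d / 2 * (1 - d / s) * ‖V' x‖ ^ 2 := by field_simp; ring
    linarith

lemma hl_sem (hS : Supp μ R) {φ : Euc n → ℝ} {V : Euc n → ℝ} {p L : ℝ} (hV : Continuous V)
    (hφ : ∀ x, φ x = p * V x - L) (h1 : ∫ x, exp (φ x) ∂μ = 1) :
    ent μ (fun x => exp (φ x)) = p * (∫ x, exp (φ x) * V x ∂μ) - L := by
  have hφc : Continuous φ := by rw [funext hφ]; fun_prop
  rw [ent, h1, log_one, mul_zero, sub_zero]
  simp only [log_exp]
  have : ∀ x, exp (φ x) * φ x = p * (exp (φ x) * V x) - L * exp (φ x) := fun x => by rw [hφ]; ring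
  rw [integral_congr_ae (Eventually.of_forall this), integral_sub (hS.integrable (by fun_prop))
    (hS.integrable (by fun_prop)), integral_const_mul, integral_const_mul, h1, mul_one]

/-- One step. -/
lemma hl_step (hS : Supp μ R) (hK : 0 < K) (ha : a = 1 / (4 * K)) (hz : 0 ≤ z) (hSemi : Semi μ K z a)
    {f : Euc n → ℝ} (hB : ∀ x, |f x| ≤ B) {s d : ℝ} (hs1 : 1 ≤ a * s) (hs2 : a * (s + d) ≤ 2)
    (hd : 0 < d) (hd2 : 2 * d ≤ s) (hd1 : d * (a * B + 4 * (B * a)) ≤ 1) :
    log (∫ x, exp (a * (s + d) * iconv f (s + d) x) ∂μ) / (a * (s + d))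
      ≤ log (∫ x, exp (a * s * iconv f s x) ∂μ) / (a * s) + a * d * z
        + d ^ 2 * (2 + (a * B + 4 * (B * a)) ^ 2) := by
  have ha0 : 0 < a := by rw [ha]; positivity
  have hs : 0 < s := pos_of_mul_pos_right (lt_of_lt_of_le one_pos hs1) ha0.le
  rw [mul_add] at hs2
  have hds : d ≤ s := le_of_mul_le_mul_left (by linarith) ha0
  obtain ⟨V, V', hV, hsc, hVB, hw4, hnear, hup⟩ := hl_data hB ha0 hs1 hd
  set p := a * s with hp
  have hp0 : 0 < p := by linarith
  set p' := a * (s + d) with hp'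
  have hpp : p' = p + a * d := by rw [hp', hp]; ring
  have hp'0 : 0 < p' := by positivity
  set c := d / 2 * (1 - d / s) with hc
  have hVc : Continuous V := hV.cont
  have hwc : Continuous fun x => ‖V' x‖ ^ 2 := hV.cont'.norm.pow 2
  have hUc' : Continuous (iconv f (s + d)) := continuous_iconv hB (add_pos hs hd)
  have hUc : Continuous (iconv f s) := continuous_iconv hB hs
  have hiV : Integrable (fun x => exp (p * V x)) μ := hS.integrable (hVc.const_mul p).rexp
  have hZ0 : 0 < ∫ x, exp (p * V x) ∂μ := integral_exp_pos hiV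
  set L := log (∫ x, exp (p * V x) ∂μ) with hL
  set φ := fun x => p * V x - L with hφ
  have hφc : Continuous φ := (hVc.const_mul p).sub continuous_const
  have hφ1 : ∫ x, exp (φ x) ∂μ = 1 := by
    simp only [hφ, exp_sub, hL, exp_log hZ0]; rw [integral_div, div_self hZ0.ne']
  have hφd : D1 φ fun x => p • V' x :=
    ⟨fun x => by
      rw [map_smul]; exact ((hV.deriv x).const_mul p).sub_const L, hV.cont'.const_smul p⟩
  have hsc' : SC a φ fun x => p • V' x := fun x y => by
    have h := mul_le_mul_of_nonneg_left (hsc x y) hp0.le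
    have e : p * (1 / s / 2 * ‖y - x‖ ^ 2) = a / 2 * ‖y - x‖ ^ 2 := by rw [hp]; field_simp
    simp only [hφ, real_inner_smul_left]
    rw [mul_add, mul_add, e] at h
    linarith
  have hsem := hSemi φ _ hφd hsc' hφ1
  have e2 : ∫ x, ‖p • V' x‖ ^ 2 * exp (φ x) ∂μ = p ^ 2 * ∫ x, exp (φ x) * ‖V' x‖ ^ 2 ∂μ := by
    rw [← integral_const_mul]
    refine integral_congr_ae (Eventually.of_forall fun x => ?_)
    simp only [norm_smul, norm_eq_abs, mul_pow, sq_abs]; ring
  rw [hl_sem hS hVc (fun x => rfl) hφ1, e2] at hsem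
  set X := fun x => a * d * V x - p' * c * ‖V' x‖ ^ 2 with hX
  have hc0 : 0 ≤ c := mul_nonneg (by positivity) (by rw [sub_nonneg, div_le_one hs]; exact hds)
  have hcd : p' * c ≤ d := by
    calc p' * c ≤ 2 * (d / 2) := mul_le_mul (by rw [hp', mul_add]; exact hs2)
          (mul_le_of_le_one_right (by positivity) (by linarith [div_nonneg hd.le hs.le])) hc0 (by norm_num)
      _ = d := by ring
  have hXc : Continuous X := (hVc.const_mul _).sub (hwc.const_mul _)
  have hXb : ∀ x, |X x| ≤ d * (a * B + 4 * (B * a)) := fun x => by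
    refine (abs_sub _ _).trans ?_
    rw [abs_mul, abs_of_pos (mul_pos ha0 hd), abs_of_nonneg (mul_nonneg (mul_nonneg hp'0.le hc0) (sq_nonneg _)),
      mul_add d, ← mul_assoc d a B, mul_comm d a]
    exact add_le_add (mul_le_mul_of_nonneg_left (hVB x) (by positivity))
      (mul_le_mul hcd (hw4 x) (sq_nonneg _) hd.le)
  have hlog := log_integral_exp_le_sq hS (p := fun x => exp (φ x)) hφc.rexp (fun x => (exp_pos _).le) hφ1
    hXc hXb hd1
  have e3 : ∫ x, exp (φ x) * X x ∂μ = a * d * (∫ x, exp (φ x) * V x ∂μ)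
      - p' * c * ∫ x, exp (φ x) * ‖V' x‖ ^ 2 ∂μ := by
    rw [← integral_const_mul, ← integral_const_mul, ← integral_sub ((hS.integrable (hφc.rexp.fun_mul hVc)).const_mul _)
      ((hS.integrable (hφc.rexp.fun_mul hwc)).const_mul _)]
    exact integral_congr_ae (Eventually.of_forall fun x => by simp only [hX]; ring)
  rw [e3, mul_pow] at hlog
  have hA0 : 0 < ∫ x, exp (φ x) * exp (X x) ∂μ := by
    simp only [← exp_add]; exact integral_exp_pos (hS.integrable (hφc.add hXc).rexp)
  have hle : ∫ x, exp (p' * iconv f (s + d) x) ∂μ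
      ≤ exp (p' * d ^ 2) * (exp L * ∫ x, exp (φ x) * exp (X x) ∂μ) := by
    rw [← integral_const_mul, ← integral_const_mul]
    refine integral_mono (hS.integrable (hUc'.const_mul _).rexp)
      (((hS.integrable (hφc.rexp.fun_mul hXc.rexp)).const_mul _).const_mul _) fun x => ?_
    rw [← exp_add, ← exp_add, ← exp_add, exp_le_exp]
    refine (mul_le_mul_of_nonneg_left (hup x) hp'0.le).trans (le_of_eq ?_)
    simp only [hφ, hX, hpp]; ring
  have hlog2 : log (∫ x, exp (p' * iconv f (s + d) x) ∂μ)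
      ≤ p' * d ^ 2 + (L + log (∫ x, exp (φ x) * exp (X x) ∂μ)) := by
    refine (log_le_log (integral_exp_pos (hS.integrable (hUc'.const_mul _).rexp)) hle).trans (le_of_eq ?_)
    rw [log_mul (exp_ne_zero _) (mul_pos (exp_pos _) hA0).ne', log_exp, log_mul (exp_ne_zero _) hA0.ne', log_exp]
  have hZU : L ≤ p * d ^ 2 + log (∫ x, exp (p * iconv f s x) ∂μ) := by
    have hiU : Integrable (fun x => exp (p * iconv f s x)) μ := hS.integrable (hUc.const_mul p).rexp
    have h1 : ∫ x, exp (p * V x) ∂μ ≤ exp (p * d ^ 2) * ∫ x, exp (p * iconv f s x) ∂μ := by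
      rw [← integral_const_mul]
      refine integral_mono hiV (hiU.const_mul _) fun x => ?_
      rw [← exp_add, exp_le_exp]
      linarith [mul_le_mul_of_nonneg_left (hnear x) hp0.le]
    refine (log_le_log hZ0 h1).trans (le_of_eq ?_)
    rw [log_mul (exp_ne_zero _) (integral_exp_pos hiU).ne', log_exp]
  have hcoef : a * d * p * K ≤ p' * c := by
    have haK : a * K = 1 / 4 := by rw [ha]; field_simp
    rw [show a * d * p * K = p * d * (a * K) by ring, haK, hc, hpp]
    have e : (p + a * d) * (d / 2 * (1 - d / s)) = p * (d / 2) - a * d * d ^ 2 / (2 * s) := by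
      rw [hp]; field_simp; ring
    rw [e]
    have h2 : a * d * d ^ 2 / (2 * s) ≤ p * (d / 4) := by
      rw [div_le_iff₀ (by positivity), hp]
      have := mul_le_mul_of_nonneg_left (mul_le_mul hd2 hd2 (by positivity) hs.le) (mul_nonneg ha0.le hd.le)
      have : 0 ≤ a * d * d ^ 2 := by positivity
      linarith
    linarith
  exact hl_scalar hs1 hpp (mul_pos ha0 hd) hz (integral_nonneg fun x => mul_nonneg (exp_pos _).le (sq_nonneg _))
    (sq_nonneg _) hsem hlog hlog2 hZU hcoef

/-- Iteration of the step over `s ∈ [1/a, 2/a]`. -/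
lemma hl_chain (hS : Supp μ R) (hK : 0 < K) (ha : a = 1 / (4 * K)) (hz : 0 ≤ z) (hSemi : Semi μ K z a)
    {f : Euc n → ℝ} (hB : ∀ x, |f x| ≤ B) (hfc : Continuous f) (hf : ∫ x, exp (f x) ∂μ ≤ 1) :
    log (∫ x, exp (2 * iconv f (2 / a) x) ∂μ) ≤ 2 * z := by
  have ha0 : 0 < a := by rw [ha]; positivity
  have hB0 : 0 ≤ B := (abs_nonneg _).trans (hB 0)
  set C := a * B + 4 * (B * a) with hC
  have hC0 : 0 ≤ C := by positivity
  refine le_of_forall_pos_le_add fun η hη => ?_
  have key : ∀ N : ℕ, 2 ≤ N → C ≤ a * N →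
      log (∫ x, exp (2 * iconv f (2 / a) x) ∂μ) / 2 ≤ z + (2 + C ^ 2) / (a ^ 2 * N) := by
    intro N hN hNC
    have hN0 : (0 : ℝ) < N := by exact_mod_cast (show 0 < N by omega)
    set d := 1 / (a * N) with hd
    have hd0 : 0 < d := by positivity
    have hadN : a * d * N = 1 := by rw [hd]; field_simp
    have ha1 : a * (1 / a) = 1 := by field_simp
    have hj : ∀ j : ℕ, j ≤ N → log (∫ x, exp (a * (1 / a + j * d) * iconv f (1 / a + j * d) x) ∂μ)
        / (a * (1 / a + j * d)) ≤ j * (a * d * z + d ^ 2 * (2 + C ^ 2)) := by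
      intro j
      induction j with
      | zero =>
        intro _
        simp only [Nat.cast_zero, zero_mul, add_zero, ha1, one_mul, div_one]
        have h1 : 0 < 1 / a := by positivity
        refine (log_nonpos (integral_nonneg fun x => (exp_pos _).le) ?_)
        refine le_trans ?_ hf
        exact integral_mono (hS.integrable ((continuous_iconv hB h1).rexp)) (hS.integrable hfc.rexp)
          fun x => exp_le_exp.2 (iconv_le_self hB h1 x)
      | succ j ih =>
        intro hj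
        have hjN : ((j : ℕ) : ℝ) + 1 ≤ N := by exact_mod_cast hj
        set s := 1 / a + (j : ℝ) * d with hs
        have has : a * s = 1 + a * d * j := by rw [hs, mul_add, ha1]; ring
        have hs1 : 1 ≤ a * s := by rw [has]; exact le_add_of_nonneg_right (by positivity)
        have hs2 : a * (s + d) ≤ 2 := by
          rw [mul_add, has]
          have := mul_le_mul_of_nonneg_left hjN (mul_pos ha0 hd0).le
          linarith
        have hd1 : d * C ≤ 1 := by
          rw [hd, div_mul_eq_mul_div, one_mul, div_le_one (by positivity)]; exact hNC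
        have hd2 : 2 * d ≤ s := by
          have h2N : (2 : ℝ) ≤ N := by exact_mod_cast hN
          have h1a : 2 * d ≤ 1 / a := by
            rw [hd, mul_one_div, div_le_div_iff₀ (by positivity) ha0]
            linarith [mul_le_mul_of_nonneg_left h2N ha0.le]
          rw [hs]
          exact h1a.trans (le_add_of_nonneg_right (by positivity))
        have h := hl_step hS hK ha hz hSemi hB hs1 hs2 hd0 hd2 hd1
        have e : 1 / a + ((j + 1 : ℕ) : ℝ) * d = s + d := by rw [hs]; push_cast; ring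
        rw [e]
        push_cast
        have := ih (by omega)
        rw [← hC] at h
        linarith
    have h := hj N le_rfl
    have e1 : 1 / a + (N : ℝ) * d = 2 / a := by rw [hd]; field_simp; ring
    have e2 : a * (2 / a) = 2 := by field_simp
    have e3 : (N : ℝ) * (a * d * z + d ^ 2 * (2 + C ^ 2)) = z + (2 + C ^ 2) / (a ^ 2 * N) := by
      rw [hd]; field_simp
    rw [e1, e2, e3] at h
    exact h
  obtain ⟨N, hN⟩ := exists_nat_ge (max 2 (max (C / a) (2 * (2 + C ^ 2) / (a ^ 2 * η))))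
  have hN1 : (2 : ℝ) ≤ N := (le_max_left _ _).trans hN
  have hN2 : C / a ≤ N := ((le_max_left _ _).trans (le_max_right _ _)).trans hN
  have hN3 : 2 * (2 + C ^ 2) / (a ^ 2 * η) ≤ N := ((le_max_right _ _).trans (le_max_right _ _)).trans hN
  rw [div_le_iff₀ ha0] at hN2
  rw [div_le_iff₀ (by positivity)] at hN3
  have h := key N (by exact_mod_cast hN1) (by linarith)
  have h2 : (2 + C ^ 2) / (a ^ 2 * N) ≤ η / 2 := by
    rw [div_le_div_iff₀ (by positivity) two_pos]; linarith
  linarith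

end Vale.Agent.P245N
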